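import Vale.Agent.P095L58.Top

open Vale.Agent.P095S

universe u

/-- Szabo's Conjecture A, with minimal (spatial) tensor products, for the Jiang-Su algebra `Z`,
which exists, is unique, and has the properties listed in the problem. -/
theorem Vale.Agent.Results.P095.ASpatial.result :
    (∃ (Z : Type u) (_ : CStarAlgebra Z), IsJS Z) ∧
    (∀ (Z : Type u) [CStarAlgebra Z], IsLimit Z → IsSSA Z → IsJS Z) ∧
    ∀ (Z : Type u) [CStarAlgebra Z], IsJS Z → Listed Z ∧
      (∀ (Z' : Type u) [CStarAlgebra Z'], IsJS Z' → Iso Z Z') ∧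
      ∀ (A : Type u) [NonUnitalCStarAlgebra A],
        (∃ (B : Type u) (_ : NonUnitalCStarAlgebra B) (T : Bil A Z B), IsSpatial T) ∧
        ∀ (B : Type u) [NonUnitalCStarAlgebra B] (T : Bil A Z B), IsSpatial T →
          (∀ (B' : Type u) [NonUnitalCStarAlgebra B'] (T' : Bil A Z B'), IsSpatial T' →
            SameTensor T T') ∧
          ∀ (G : Type) [Group G] (α : Act A G), (∃! β : Act B G, IsTensorId T α β) ∧
            ∀ β : Act B G, IsTensorId T α β → SepSimpleNuc A → Iso A B → Countable G →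
              Amenable G → CocycleConj α β :=
  ⟨(Vale.Agent.JS.exists_jiangSu Vale.Agent.JS.Side095.absorption).elim fun Z h =>
      h.elim fun i h => ⟨Z, i, isJS_of_old h.1⟩, fun _ _ => isJS_of_ssa,
    fun Z _ hZ => ⟨hZ.listed, fun _ _ hZ' => hZ.old.unique Vale.Agent.JS.Side095.absorption hZ'.old,
      fun A _ => ⟨Vale.Agent.P095L.exists_spatial A Z, fun _ _ _ hT =>
        ⟨fun _ _ _ hT' => Vale.Agent.P095L.IsSpatial.unique hT hT',
          fun _ _ α => ⟨Vale.Agent.P095L.IsSpatial.act hT α, fun _ => conj hZ hT⟩⟩⟩⟩⟩
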